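import Vale.Agent.P112.H371.Win

/-!
# P112, chapter (G), [GAIN]: windows and occupancy levels, [LEV-WIN]

`WM H` : the measure of the pairs (base point, height in the window of height `H`), normalised by
`1 / H`. `act a z` : the trees which are active over the window of `z` with occupancy level `a`.

* `lev_split` : `∫ f |Σ G_i| ≤ Σ_a ∫_z Wa (f |Σ_{i ∈ act a z} G_i|)`.
* `lev_cs` : Cauchy-Schwarz on the main part of the `z`-plane.
* `lev_holder`, `lev_few`, `lev_exc` : Hölder `(4/3, 4)` on the rest.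
* `lev_win` : everything together.
-/

open MeasureTheory Set
open scoped ENNReal

namespace Vale.Agent.P112.H371

/-- the point of the window of `p.1` at the height `p.2` -/
def sh (p : (ℝ × ℝ) × ℝ) : ℝ × ℝ := (p.1.1, p.1.2 + p.2)

theorem sh_meas : Measurable sh := by unfold sh; fun_prop

/-- the measure of the pairs (base point, height) -/
noncomputable def WM (H : ℝ) : Measure ((ℝ × ℝ) × ℝ) :=
  ENNReal.ofReal (1 / H) • ((volume : Measure (ℝ × ℝ)).prod (volume.restrict (Ioc 0 H)))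

theorem lint_WM {H : ℝ} {Φ : (ℝ × ℝ) × ℝ → ℝ≥0∞} (hΦ : Measurable Φ) :
    ∫⁻ p, Φ p ∂WM H = ∫⁻ z, ENNReal.ofReal (1 / H) * ∫⁻ v in Ioc 0 H, Φ (z, v) := by
  unfold WM
  rw [lintegral_smul_measure, lintegral_prod _ hΦ.aemeasurable, smul_eq_mul,
    lintegral_const_mul _ hΦ.lintegral_prod_right']

/-- the window average of a function which depends on the base point -/
theorem lint_Wa_joint {H : ℝ} {Φ : ℝ × ℝ → ℝ × ℝ → ℝ≥0∞} (hΦ : Measurable (Function.uncurry Φ))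
    {S : Set (ℝ × ℝ)} (hS : MeasurableSet S) :
    ∫⁻ z in S, Wa H (Φ z) z = ∫⁻ p in Prod.fst ⁻¹' S, Φ p.1 (sh p) ∂WM H := by
  have hm : Measurable fun p : (ℝ × ℝ) × ℝ => Φ p.1 (sh p) :=
    hΦ.comp (measurable_fst.prodMk sh_meas)
  rw [← lintegral_indicator (measurable_fst hS), lint_WM (hm.indicator (measurable_fst hS)),
    ← lintegral_indicator hS]
  refine lintegral_congr fun z => ?_
  by_cases hz : z ∈ S
  · rw [indicator_of_mem hz, Wa_eq]
    congr 1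
    refine lintegral_congr fun v => ?_
    rw [indicator_of_mem (show ((z, v) : (ℝ × ℝ) × ℝ) ∈ Prod.fst ⁻¹' S from hz)]
    rfl
  · rw [indicator_of_notMem hz]
    have : ∀ v, (Prod.fst ⁻¹' S).indicator (fun p : (ℝ × ℝ) × ℝ => Φ p.1 (sh p)) (z, v) = 0 :=
      fun v => indicator_of_notMem (show ((z, v) : (ℝ × ℝ) × ℝ) ∉ Prod.fst ⁻¹' S from hz) _
    simp only [this, lintegral_zero, mul_zero]

/-- a function of the point only -/
theorem lint_WM_sh {H : ℝ} (hH : 0 < H) {h : ℝ × ℝ → ℝ≥0∞} (hh : Measurable h) :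
    ∫⁻ p, h (sh p) ∂WM H = ∫⁻ z, h z := by
  have h1 := lint_Wa_joint (H := H) (Φ := fun _ => h) (hh.comp measurable_snd) MeasurableSet.univ
  rw [setLIntegral_univ, preimage_univ, setLIntegral_univ] at h1
  rw [← h1, lint_Wa_all hH hh]

theorem lint_WM_sh_le {H : ℝ} (hH : 0 < H) {h : ℝ × ℝ → ℝ≥0∞} (hh : Measurable h)
    (T : Set ((ℝ × ℝ) × ℝ)) : ∫⁻ p in T, h (sh p) ∂WM H ≤ ∫⁻ z, h z :=
  (setLIntegral_le_lintegral _ _).trans_eq (lint_WM_sh hH hh)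

section lev

variable {ι : Type*} [Fintype ι] {A : Type*} [Fintype A] {H : ℝ} {f : ℝ × ℝ → ℝ≥0∞}
  {G : ι → ℝ × ℝ → ℂ}

theorem act_sum_meas {E : Type*} [AddCommMonoid E] [MeasurableSpace E] [MeasurableAdd₂ E]
    {act : ℝ × ℝ → Finset ι} (hact : ∀ i, MeasurableSet {z | i ∈ act z})
    {F : ι → ℝ × ℝ → E} (hF : ∀ i, Measurable (F i)) :
    Measurable (Function.uncurry fun z ζ => ∑ i ∈ act z, F i ζ) := by
  classical
  have h : (Function.uncurry fun z ζ => ∑ i ∈ act z, F i ζ) =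
      fun p : (ℝ × ℝ) × (ℝ × ℝ) => ∑ i, if i ∈ act p.1 then F i p.2 else 0 := by
    funext p
    simp only [Function.uncurry]
    rw [← Finset.sum_filter]
    congr 1
    ext i
    simp
  rw [h]
  refine Finset.measurable_fun_sum _ fun i _ => ?_
  exact Measurable.ite (measurable_fst (hact i)) ((hF i).comp measurable_snd) measurable_const

/-- decomposition into levels -/
theorem lev_split (hH : 0 < H) (hf : Measurable f) (hG : ∀ i, Measurable (G i))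
    (act : A → ℝ × ℝ → Finset ι) (hact : ∀ a i, MeasurableSet {z | i ∈ act a z})
    (hcov : ∀ z i, ∀ v ∈ Ioc (0 : ℝ) H, G i (sh (z, v)) ≠ 0 → ∃ a, i ∈ act a z)
    (hdis : ∀ a a' z i, i ∈ act a z → i ∈ act a' z → a = a') :
    ∫⁻ ζ, f ζ * ‖∑ i, G i ζ‖ₑ ≤
      ∑ a, ∫⁻ z, Wa H (fun ζ => f ζ * ‖∑ i ∈ act a z, G i ζ‖ₑ) z := by
  classical
  have hGs : Measurable fun ζ => ∑ i, G i ζ := Finset.measurable_fun_sum _ fun i _ => hG i
  have hm : ∀ a, Measurable (Function.uncurry fun z ζ => f ζ * ‖∑ i ∈ act a z, G i ζ‖ₑ) := by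
    intro a
    exact (hf.comp measurable_snd).mul (act_sum_meas (hact a) hG).enorm
  rw [← lint_Wa_all hH (f := fun ζ => f ζ * ‖∑ i, G i ζ‖ₑ) (hf.mul hGs.enorm)]
  have h1 : ∀ a, ∫⁻ z, Wa H (fun ζ => f ζ * ‖∑ i ∈ act a z, G i ζ‖ₑ) z =
      ∫⁻ z in univ, Wa H ((fun z ζ => f ζ * ‖∑ i ∈ act a z, G i ζ‖ₑ) z) z := fun a => by
    rw [setLIntegral_univ]
  have hWm : ∀ a, Measurable fun z => Wa H (fun ζ => f ζ * ‖∑ i ∈ act a z, G i ζ‖ₑ) z := by
    intro a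
    have h2 : (fun z => Wa H (fun ζ => f ζ * ‖∑ i ∈ act a z, G i ζ‖ₑ) z) = fun z =>
        ENNReal.ofReal (1 / H) * ∫⁻ v in Ioc 0 H,
          (f (sh (z, v)) * ‖∑ i ∈ act a z, G i (sh (z, v))‖ₑ) := by
      funext z
      rw [Wa_eq]
      rfl
    rw [h2]
    refine Measurable.const_mul ?_ _
    refine Measurable.lintegral_prod_right'
      (f := fun (p : (ℝ × ℝ) × ℝ) => f (sh p) * ‖∑ i ∈ act a p.1, G i (sh p)‖ₑ) ?_
    exact (hm a).comp (measurable_fst.prodMk sh_meas)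
  rw [← lintegral_finsetSum _ fun a _ => hWm a]
  refine lintegral_mono fun z => ?_
  simp only [Wa_eq]
  rw [← Finset.mul_sum, ← lintegral_finsetSum]
  · refine mul_le_mul_right ?_ _
    refine setLIntegral_mono_ae' measurableSet_Ioc (Filter.Eventually.of_forall fun v hv => ?_)
    rw [← Finset.mul_sum]
    refine mul_le_mul_right ?_ _
    have h3 : ∑ i, G i (z.1, z.2 + v) = ∑ a, ∑ i ∈ act a z, G i (z.1, z.2 + v) := by
      have h4 : ∀ a, ∑ i ∈ act a z, G i (z.1, z.2 + v) =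
          ∑ i, if i ∈ act a z then G i (z.1, z.2 + v) else 0 := by
        intro a
        rw [← Finset.sum_filter]
        congr 1
        ext i
        simp
      simp only [h4]
      rw [Finset.sum_comm]
      refine Finset.sum_congr rfl fun i _ => ?_
      by_cases h0 : G i (z.1, z.2 + v) = 0
      · simp [h0]
      · obtain ⟨a0, ha0⟩ := hcov z i v hv h0
        rw [Finset.sum_eq_single a0]
        · rw [if_pos ha0]
        · intro a _ ha
          rw [if_neg]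
          exact fun h5 => ha (hdis a a0 z i h5 ha0)
        · intro h5
          exact absurd (Finset.mem_univ _) h5
    rw [h3]
    exact enorm_sum_le _ _
  · intro a _
    exact ((hm a).comp (measurable_const.prodMk (sh_meas.comp (measurable_const.prodMk
      measurable_id))) : Measurable fun v : ℝ => f (sh (z, v)) * ‖∑ i ∈ act a z, G i (sh (z, v))‖ₑ)

theorem mem_act_meas {act : ℝ × ℝ → Finset ι} (hact : ∀ i, MeasurableSet {z | i ∈ act z}) :
    Measurable fun z => ((act z).card : ℝ≥0∞) := by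
  classical
  have h : (fun z => ((act z).card : ℝ≥0∞)) = fun z => ∑ i, if i ∈ act z then (1 : ℝ≥0∞) else 0 := by
    funext z
    rw [← Finset.sum_filter, Finset.sum_const, nsmul_eq_mul, mul_one]
    congr 2
    ext i
    simp
  rw [h]
  exact Finset.measurable_fun_sum _ fun i _ => Measurable.ite (hact i) measurable_const measurable_const

/-- Cauchy-Schwarz on a part of the `z`-plane -/
theorem lev_cs (hH : 0 < H) (hf : Measurable f) (hG : ∀ i, Measurable (G i))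
    (act : ℝ × ℝ → Finset ι) (hact : ∀ i, MeasurableSet {z | i ∈ act z})
    {S : Set (ℝ × ℝ)} (hS : MeasurableSet S) :
    ∫⁻ z in S, Wa H (fun ζ => f ζ * ‖∑ i ∈ act z, G i ζ‖ₑ) z ≤
      (∫⁻ ζ, f ζ ^ 2) ^ (1 / 2 : ℝ) *
        (∫⁻ z in S, Wa H (fun ζ => ‖∑ i ∈ act z, G i ζ‖ₑ ^ 2) z) ^ (1 / 2 : ℝ) := by
  have hs := act_sum_meas hact hG
  have e1 := lint_Wa_joint (H := H) (Φ := fun z ζ => f ζ * ‖∑ i ∈ act z, G i ζ‖ₑ)
    ((hf.comp measurable_snd).mul hs.enorm) hS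
  have e2 := lint_Wa_joint (H := H) (Φ := fun z ζ => ‖∑ i ∈ act z, G i ζ‖ₑ ^ 2)
    (hs.enorm.pow_const 2) hS
  rw [e1, e2]
  have hm : Measurable fun p : (ℝ × ℝ) × ℝ => ‖∑ i ∈ act p.1, G i (sh p)‖ₑ :=
    (hs.comp (measurable_fst.prodMk sh_meas)).enorm
  have h := ENNReal.lintegral_mul_le_Lp_mul_Lq ((WM H).restrict (Prod.fst ⁻¹' S))
    Real.HolderConjugate.two_two (hf.comp sh_meas).aemeasurable hm.aemeasurable
  simp only [Pi.mul_apply, Function.comp] at h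
  refine h.trans ?_
  simp only [ENNReal.rpow_two]
  gcongr
  exact lint_WM_sh_le hH (hf.pow_const 2) _

/-- Hölder `(4/3, 4)` on a part of the `z`-plane -/
theorem lev_holder (hH : 0 < H) (hf : Measurable f) (hf1 : ∀ z, f z ≤ 1)
    (hG : ∀ i, Measurable (G i)) (act : ℝ × ℝ → Finset ι)
    (hact : ∀ i, MeasurableSet {z | i ∈ act z}) {S : Set (ℝ × ℝ)} (hS : MeasurableSet S) :
    ∫⁻ z in S, Wa H (fun ζ => f ζ * ‖∑ i ∈ act z, G i ζ‖ₑ) z ≤
      (∑ i, ∫⁻ z in S ∩ {z | i ∈ act z}, Wa H (({ζ | G i ζ ≠ 0}).indicator f) z) ^ (3 / 4 : ℝ) *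
        (∑ i, ∫⁻ ζ, ‖G i ζ‖ₑ ^ 4) ^ (1 / 4 : ℝ) := by
  classical
  have hs := act_sum_meas hact hG
  have e1 := lint_Wa_joint (H := H) (Φ := fun z ζ => f ζ * ‖∑ i ∈ act z, G i ζ‖ₑ)
    ((hf.comp measurable_snd).mul hs.enorm) hS
  rw [e1]
  have hN : ∀ i, MeasurableSet {ζ | G i ζ ≠ 0} := fun i => by
    have : {ζ | G i ζ ≠ 0} = (G i ⁻¹' {0})ᶜ := by ext z; simp
    rw [this]
    exact (hG i (measurableSet_singleton 0)).compl
  have hfi : ∀ i, Measurable (({ζ | G i ζ ≠ 0}).indicator f) := fun i => hf.indicator (hN i)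
  have e2 : ∀ i, ∫⁻ z in S ∩ {z | i ∈ act z}, Wa H (({ζ | G i ζ ≠ 0}).indicator f) z =
      ∫⁻ p in Prod.fst ⁻¹' (S ∩ {z | i ∈ act z}), ({ζ | G i ζ ≠ 0}).indicator f (sh p) ∂WM H :=
    fun i => lint_Wa_joint (H := H) (Φ := fun _ => ({ζ | G i ζ ≠ 0}).indicator f)
      ((hfi i).comp measurable_snd) (hS.inter (hact i))
  simp only [e2]
  set μ := WM H
  -- the pieces
  have hp : ∀ p : (ℝ × ℝ) × ℝ, (Prod.fst ⁻¹' S).indicator
      (fun p => f (sh p) * ‖∑ i ∈ act p.1, G i (sh p)‖ₑ) p ≤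
      ∑ i, (Prod.fst ⁻¹' (S ∩ {z | i ∈ act z})).indicator
        (fun p => ({ζ | G i ζ ≠ 0}).indicator f (sh p) * ‖G i (sh p)‖ₑ) p := by
    intro p
    by_cases hpS : p.1 ∈ S
    · rw [indicator_of_mem (show p ∈ Prod.fst ⁻¹' S from hpS)]
      calc f (sh p) * ‖∑ i ∈ act p.1, G i (sh p)‖ₑ
          ≤ f (sh p) * ∑ i ∈ act p.1, ‖G i (sh p)‖ₑ := by
            gcongr
            exact enorm_sum_le _ _
        _ = ∑ i ∈ act p.1, f (sh p) * ‖G i (sh p)‖ₑ := Finset.mul_sum _ _ _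
        _ ≤ ∑ i ∈ act p.1, (Prod.fst ⁻¹' (S ∩ {z | i ∈ act z})).indicator
            (fun p => ({ζ | G i ζ ≠ 0}).indicator f (sh p) * ‖G i (sh p)‖ₑ) p := by
            refine Finset.sum_le_sum fun i hi => ?_
            rw [indicator_of_mem (show p ∈ Prod.fst ⁻¹' (S ∩ {z | i ∈ act z}) from ⟨hpS, hi⟩)]
            by_cases h0 : G i (sh p) = 0
            · simp [h0]
            · rw [indicator_of_mem (show sh p ∈ {ζ | G i ζ ≠ 0} from h0)]
        _ ≤ _ := Finset.sum_le_univ_sum_of_nonneg fun i => bot_le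
    · rw [indicator_of_notMem (show p ∉ Prod.fst ⁻¹' S from hpS)]
      exact bot_le
  have hgm : ∀ i, Measurable fun p : (ℝ × ℝ) × ℝ => ({ζ | G i ζ ≠ 0}).indicator f (sh p) :=
    fun i => (hfi i).comp sh_meas
  have hGm : ∀ i, Measurable fun p : (ℝ × ℝ) × ℝ => ‖G i (sh p)‖ₑ :=
    fun i => ((hG i).comp sh_meas).enorm
  have h1 : ∫⁻ p in Prod.fst ⁻¹' S, f (sh p) * ‖∑ i ∈ act p.1, G i (sh p)‖ₑ ∂μ ≤
      ∑ i, ∫⁻ p in Prod.fst ⁻¹' (S ∩ {z | i ∈ act z}),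
        ({ζ | G i ζ ≠ 0}).indicator f (sh p) * ‖G i (sh p)‖ₑ ∂μ := by
    rw [← lintegral_indicator (measurable_fst hS)]
    refine (lintegral_mono hp).trans ?_
    have hm2 : ∀ i, Measurable ((Prod.fst ⁻¹' (S ∩ {z | i ∈ act z})).indicator
        (fun p : (ℝ × ℝ) × ℝ => ({ζ | G i ζ ≠ 0}).indicator f (sh p) * ‖G i (sh p)‖ₑ)) := fun i =>
      ((hgm i).mul (hGm i)).indicator (measurable_fst (hS.inter (hact i)))
    rw [lintegral_finsetSum _ fun i _ => hm2 i]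
    refine Finset.sum_le_sum fun i _ => ?_
    rw [lintegral_indicator (measurable_fst (hS.inter (hact i)))]
  refine h1.trans ?_
  have hpq : (4 / 3 : ℝ).HolderConjugate 4 := by
    rw [Real.holderConjugate_iff]
    norm_num
  have h2 : ∀ i, ∫⁻ p in Prod.fst ⁻¹' (S ∩ {z | i ∈ act z}),
        ({ζ | G i ζ ≠ 0}).indicator f (sh p) * ‖G i (sh p)‖ₑ ∂μ ≤
      (∫⁻ p in Prod.fst ⁻¹' (S ∩ {z | i ∈ act z}), ({ζ | G i ζ ≠ 0}).indicator f (sh p) ∂μ) ^ (3 / 4 : ℝ) *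
        (∫⁻ ζ, ‖G i ζ‖ₑ ^ 4) ^ (1 / 4 : ℝ) := by
    intro i
    have h := ENNReal.lintegral_mul_le_Lp_mul_Lq (μ.restrict (Prod.fst ⁻¹' (S ∩ {z | i ∈ act z})))
      hpq (hgm i).aemeasurable (hGm i).aemeasurable
    simp only [Pi.mul_apply] at h
    refine h.trans ?_
    have e3 : (1 / (4 / 3) : ℝ) = 3 / 4 := by norm_num
    rw [e3]
    refine mul_le_mul' (ENNReal.rpow_le_rpow (lintegral_mono fun p => ?_) (by norm_num))
      (ENNReal.rpow_le_rpow ?_ (by norm_num))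
    · by_cases h0 : sh p ∈ {ζ | G i ζ ≠ 0}
      · rw [indicator_of_mem h0]
        calc f (sh p) ^ (4 / 3 : ℝ) ≤ f (sh p) ^ (1 : ℝ) :=
              ENNReal.rpow_le_rpow_of_exponent_ge (hf1 _) (by norm_num)
          _ = f (sh p) := ENNReal.rpow_one _
      · rw [indicator_of_notMem h0, ENNReal.zero_rpow_of_pos (by norm_num)]
    · have h5 : ∀ p : (ℝ × ℝ) × ℝ, ‖G i (sh p)‖ₑ ^ (4 : ℝ) = ‖G i (sh p)‖ₑ ^ 4 := fun p => by
        rw [← ENNReal.rpow_natCast]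
        norm_num
      simp only [h5]
      exact lint_WM_sh_le hH ((hG i).enorm.pow_const 4) _
  refine (Finset.sum_le_sum fun i _ => h2 i).trans ?_
  have h3 := ENNReal.inner_le_Lp_mul_Lq Finset.univ
    (fun i => (∫⁻ p in Prod.fst ⁻¹' (S ∩ {z | i ∈ act z}),
      ({ζ | G i ζ ≠ 0}).indicator f (sh p) ∂μ) ^ (3 / 4 : ℝ))
    (fun i => (∫⁻ ζ, ‖G i ζ‖ₑ ^ 4) ^ (1 / 4 : ℝ)) hpq
  refine h3.trans (le_of_eq ?_)
  have e4 : ∀ x : ℝ≥0∞, (x ^ (3 / 4 : ℝ)) ^ (4 / 3 : ℝ) = x := fun x => by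
    rw [← ENNReal.rpow_mul]; norm_num
  have e5 : ∀ x : ℝ≥0∞, (x ^ (1 / 4 : ℝ)) ^ (4 : ℝ) = x := fun x => by
    rw [← ENNReal.rpow_mul]; norm_num
  simp only [e4, e5]
  norm_num

/-- the part with few active trees -/
theorem lev_few (hH : 0 < H) (hf : Measurable f) (hf1 : ∀ z, f z ≤ 1)
    (hG : ∀ i, Measurable (G i)) (act : ℝ × ℝ → Finset ι)
    (hact : ∀ i, MeasurableSet {z | i ∈ act z}) {S : Set (ℝ × ℝ)} (hS : MeasurableSet S)
    {M0 : ℝ≥0∞} (hM : ∀ z ∈ S, ((act z).card : ℝ≥0∞) ≤ M0) :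
    ∫⁻ z in S, Wa H (fun ζ => f ζ * ‖∑ i ∈ act z, G i ζ‖ₑ) z ≤
      (M0 * ∫⁻ ζ, f ζ) ^ (3 / 4 : ℝ) * (∑ i, ∫⁻ ζ, ‖G i ζ‖ₑ ^ 4) ^ (1 / 4 : ℝ) := by
  classical
  refine (lev_holder hH hf hf1 hG act hact hS).trans ?_
  gcongr
  have h1 : ∀ i, ∫⁻ z in S ∩ {z | i ∈ act z}, Wa H (({ζ | G i ζ ≠ 0}).indicator f) z ≤
      ∫⁻ z, (S ∩ {z | i ∈ act z}).indicator (Wa H f) z := by
    intro i
    rw [lintegral_indicator (hS.inter (hact i))]
    exact lintegral_mono fun z => Wa_mono (fun ζ => indicator_le_self' (fun _ _ => bot_le) ζ) z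
  refine (Finset.sum_le_sum fun i _ => h1 i).trans ?_
  rw [← lintegral_finsetSum _ fun i _ => (Wa_meas hf).indicator (hS.inter (hact i)),
    ← lint_Wa_all hH hf, ← lintegral_const_mul _ (Wa_meas hf)]
  refine lintegral_mono fun z => ?_
  by_cases hz : z ∈ S
  · have h2 : ∀ i, (S ∩ {z | i ∈ act z}).indicator (Wa H f) z =
        if i ∈ act z then Wa H f z else 0 := by
      intro i
      by_cases hi : i ∈ act z
      · rw [indicator_of_mem (show z ∈ S ∩ {z | i ∈ act z} from ⟨hz, hi⟩), if_pos hi]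
      · rw [indicator_of_notMem (fun h => hi h.2), if_neg hi]
    simp only [h2]
    rw [← Finset.sum_filter, Finset.sum_const, nsmul_eq_mul]
    gcongr
    refine le_trans (le_of_eq ?_) (hM z hz)
    congr 2
    ext i
    simp
  · have h2 : ∀ i, (S ∩ {z | i ∈ act z}).indicator (Wa H f) z = 0 := fun i =>
      indicator_of_notMem (fun h => hz h.1) _
    simp [h2]

/-- the exceptional part, with the occupancy `o` -/
theorem lev_exc (hH : 0 < H) (hf : Measurable f) (hf1 : ∀ z, f z ≤ 1)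
    (hG : ∀ i, Measurable (G i)) (act : ℝ × ℝ → Finset ι)
    (hact : ∀ i, MeasurableSet {z | i ∈ act z}) {S : Set (ℝ × ℝ)} (hS : MeasurableSet S)
    {o : ℝ≥0∞} (ho : ∀ z ∈ S, ∀ i ∈ act z, Wa H (({ζ | G i ζ ≠ 0}).indicator 1) z ≤ o) :
    ∫⁻ z in S, Wa H (fun ζ => f ζ * ‖∑ i ∈ act z, G i ζ‖ₑ) z ≤
      (o * ∫⁻ z in S, ((act z).card : ℝ≥0∞)) ^ (3 / 4 : ℝ) *
        (∑ i, ∫⁻ ζ, ‖G i ζ‖ₑ ^ 4) ^ (1 / 4 : ℝ) := by
  classical
  refine (lev_holder hH hf hf1 hG act hact hS).trans ?_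
  gcongr
  have h1 : ∀ i, ∫⁻ z in S ∩ {z | i ∈ act z}, Wa H (({ζ | G i ζ ≠ 0}).indicator f) z ≤
      ∫⁻ z, (S ∩ {z | i ∈ act z}).indicator (fun _ => o) z := by
    intro i
    rw [lintegral_indicator (hS.inter (hact i))]
    refine setLIntegral_mono' (hS.inter (hact i)) fun z hz => ?_
    refine le_trans (Wa_mono (fun ζ => ?_) z) (ho z hz.1 i hz.2)
    by_cases h0 : ζ ∈ {ζ | G i ζ ≠ 0}
    · rw [indicator_of_mem h0, indicator_of_mem h0]
      exact hf1 ζ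
    · rw [indicator_of_notMem h0]
      exact bot_le
  refine (Finset.sum_le_sum fun i _ => h1 i).trans ?_
  rw [← lintegral_finsetSum _ fun i _ => measurable_const.indicator (hS.inter (hact i)),
    ← lintegral_const_mul _ (mem_act_meas hact), ← lintegral_indicator hS]
  refine lintegral_mono fun z => ?_
  by_cases hz : z ∈ S
  · have h2 : ∀ i, (S ∩ {z | i ∈ act z}).indicator (fun _ => o) z =
        if i ∈ act z then o else 0 := by
      intro i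
      by_cases hi : i ∈ act z
      · rw [indicator_of_mem (show z ∈ S ∩ {z | i ∈ act z} from ⟨hz, hi⟩), if_pos hi]
      · rw [indicator_of_notMem (fun h => hi h.2), if_neg hi]
    simp only [h2]
    rw [← Finset.sum_filter, Finset.sum_const, nsmul_eq_mul, indicator_of_mem hz, mul_comm]
    refine le_of_eq ?_
    congr 3
    ext i
    simp
  · have h2 : ∀ i, (S ∩ {z | i ∈ act z}).indicator (fun _ => o) z = 0 := fun i =>
      indicator_of_notMem (fun h => hz h.1) _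
    simp [h2]

/-- **[LEV-WIN]** -/
theorem lev_win (hH : 0 < H) (hf : Measurable f) (hf1 : ∀ z, f z ≤ 1)
    (hG : ∀ i, Measurable (G i)) (act : A → ℝ × ℝ → Finset ι)
    (hact : ∀ a i, MeasurableSet {z | i ∈ act a z})
    (hcov : ∀ z i, ∀ v ∈ Ioc (0 : ℝ) H, G i (sh (z, v)) ≠ 0 → ∃ a, i ∈ act a z)
    (hdis : ∀ a a' z i, i ∈ act a z → i ∈ act a' z → a = a')
    {S T : A → Set (ℝ × ℝ)} (hS : ∀ a, MeasurableSet (S a)) (hT : ∀ a, MeasurableSet (T a))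
    {M0 : ℝ≥0∞} (hM : ∀ a, ∀ z ∉ S a, z ∉ T a → ((act a z).card : ℝ≥0∞) ≤ M0)
    {o : A → ℝ≥0∞}
    (ho : ∀ a, ∀ z ∈ T a, ∀ i ∈ act a z, Wa H (({ζ | G i ζ ≠ 0}).indicator 1) z ≤ o a) :
    ∫⁻ ζ, f ζ * ‖∑ i, G i ζ‖ₑ ≤
      ∑ a, ((∫⁻ ζ, f ζ) ^ (1 / 2 : ℝ) *
          (∫⁻ z in S a, Wa H (fun ζ => ‖∑ i ∈ act a z, G i ζ‖ₑ ^ 2) z) ^ (1 / 2 : ℝ) +
        ((M0 * ∫⁻ ζ, f ζ) ^ (3 / 4 : ℝ) + (o a * ∫⁻ z in T a, ((act a z).card : ℝ≥0∞)) ^ (3 / 4 : ℝ)) *
          (∑ i, ∫⁻ ζ, ‖G i ζ‖ₑ ^ 4) ^ (1 / 4 : ℝ)) := by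
  classical
  refine (lev_split hH hf hG act hact hcov hdis).trans ?_
  refine Finset.sum_le_sum fun a _ => ?_
  have hU : MeasurableSet ((S a ∪ T a)ᶜ) := ((hS a).union (hT a)).compl
  have h1 : ∫⁻ z, Wa H (fun ζ => f ζ * ‖∑ i ∈ act a z, G i ζ‖ₑ) z ≤
      (∫⁻ z in S a, Wa H (fun ζ => f ζ * ‖∑ i ∈ act a z, G i ζ‖ₑ) z) +
      ((∫⁻ z in (S a ∪ T a)ᶜ, Wa H (fun ζ => f ζ * ‖∑ i ∈ act a z, G i ζ‖ₑ) z) +
      ∫⁻ z in T a, Wa H (fun ζ => f ζ * ‖∑ i ∈ act a z, G i ζ‖ₑ) z) := by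
    rw [← lintegral_add_compl _ (hS a)]
    refine add_le_add_right ?_ _
    refine (lintegral_mono_set (?_ : (S a)ᶜ ⊆ (S a ∪ T a)ᶜ ∪ T a)).trans (lintegral_union_le _ _ _)
    intro z hz
    by_cases hzT : z ∈ T a
    · exact Or.inr hzT
    · exact Or.inl fun h => h.elim hz hzT
  refine h1.trans ?_
  rw [add_mul]
  refine add_le_add ?_ (add_le_add ?_ ?_)
  · refine (lev_cs hH hf hG (act a) (hact a) (hS a)).trans ?_
    gcongr with ζ
    calc f ζ ^ 2 = f ζ * f ζ := sq _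
      _ ≤ f ζ * 1 := by gcongr; exact hf1 ζ
      _ = f ζ := mul_one _
  · exact lev_few hH hf hf1 hG (act a) (hact a) hU fun z hz =>
      hM a z (fun h => hz (Or.inl h)) fun h => hz (Or.inr h)
  · exact lev_exc hH hf hf1 hG (act a) (hact a) (hT a) (ho a)

end lev

end Vale.Agent.P112.H371
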