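import Vale.Agent.P112.T580.Lev4
import Vale.Agent.P112.H646.GainDefs
import Vale.Agent.P112.H371.LevWin

/-!
# P112, chapter (G), [GAIN]: margins of the boxes of one level (helper371)

* `nsB_meas`, `nsB_le` : the set where `SafeB X θ` fails is measurable, its volume is at most
  `8 θ ∫ #act`.
* `act_set_meas` : every condition on the active set is measurable.
* `card_lint` : `∫ #act = Σ_k |box k|`.
* `card_cs`, `card_gt`, `card_nsB` : `∫ #act` over a set, over `{K < #act}`, over the margins.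
* `gact_eq`, `dil_one`, `sepB_of` : translation from `H646.Gain`.
-/

open MeasureTheory Set
open scoped ENNReal

noncomputable section

namespace Vale.Agent.P112.H371

open Vale.Agent.P112.H8 (Bxs)
open Vale.Agent.P112.T580.Lev (act Ri dil SafeB SepB Ri_meas reg_meas)

variable {ι κ : Type} (X : Bxs ι κ)

/-! ## the dilated boxes -/

theorem dil_eq (θ : ℝ) (b : κ) : dil X θ b = sr (X.s (X.tb b)) (X.x0 b - θ * X.lam b)
    (X.x0 b + X.lam b + θ * X.lam b) (X.y0 b - θ * X.h b) (X.y0 b + X.h b + θ * X.h b) := rfl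

theorem dil_meas (θ : ℝ) (b : κ) : MeasurableSet (dil X θ b) := by
  rw [dil_eq]; exact sr_meas _ _ _ _ _

theorem dil_vol {θ : ℝ} (hθ : -(1 / 2) ≤ θ) (b : κ) :
    volume (dil X θ b) = ENNReal.ofReal ((1 + 2 * θ) ^ 2 * (X.lam b * X.h b)) := by
  have h1 := X.lam_pos b
  have h2 := X.h_pos b
  rw [dil_eq, sr_vol, ← ENNReal.ofReal_mul]
  · congr 1
    ring
  · have : X.x0 b + X.lam b + θ * X.lam b - (X.x0 b - θ * X.lam b) = (1 + 2 * θ) * X.lam b := by ring
    rw [this]
    exact mul_nonneg (by linarith) h1.le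

theorem dil_mono {θ θ' : ℝ} (h : θ ≤ θ') (b : κ) : dil X θ b ⊆ dil X θ' b := by
  intro z hz
  have h1 := mul_le_mul_of_nonneg_right h (X.lam_pos b).le
  have h2 := mul_le_mul_of_nonneg_right h (X.h_pos b).le
  obtain ⟨a1, a2, a3, a4⟩ := hz
  exact ⟨by linarith, by linarith, by linarith, by linarith⟩

theorem mem_dil_zero {b : κ} {z : ℝ × ℝ} : z ∈ dil X 0 b ↔ X.tilt (X.tb b) z ∈ X.box b := by
  simp only [dil, Bxs.tilt, Bxs.box, mem_prod, mem_Ico, mem_ofPred_eq, zero_mul, sub_zero, add_zero]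
  tauto

theorem dil_one (k : κ) : dil X 1 k = H646.Gain.big X k := by
  ext z
  simp only [dil, H646.Gain.big, mem_ofPred_eq]
  constructor
  · rintro ⟨h1, h2, h3, h4⟩
    exact ⟨by linarith, by linarith, by linarith, by linarith⟩
  · rintro ⟨h1, h2, h3, h4⟩
    exact ⟨by linarith, by linarith, by linarith, by linarith⟩

/-- the separation in the form of `level` -/
theorem sepB_of {Qs k0 : ℝ} (hk : 0 ≤ k0)
    (h : ∀ k k' : κ, X.tb k ≠ X.tb k' → (H646.Gain.big X k ∩ H646.Gain.big X k').Nonempty →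
      Qs ≤ |X.s (X.tb k) - X.s (X.tb k')| * min (X.lam k) (X.lam k')) : SepB X k0 (k0 * Qs) := by
  intro b b' hne hmeet
  rw [dil_one, dil_one] at hmeet
  rw [mul_assoc]
  exact mul_le_mul_of_nonneg_left (h b b' hne hmeet) hk

/-! ## the margins -/

theorem marg2_vol {θ : ℝ} (h0 : 0 ≤ θ) (h1 : θ ≤ 1 / 2) (b : κ) :
    volume (dil X θ b \ dil X (-θ) b) = ENNReal.ofReal (8 * θ * (X.lam b * X.h b)) := by
  rw [measure_sdiff (dil_mono X (by linarith) b) (dil_meas X _ b).nullMeasurableSet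
    (by rw [dil_vol X (by linarith)]; exact ENNReal.ofReal_ne_top), dil_vol X (by linarith),
    dil_vol X (by linarith), ← ENNReal.ofReal_sub _ (by have := X.lam_pos b; have := X.h_pos b; positivity)]
  congr 1
  ring

/-- the set where `SafeB` fails -/
def nsB (θ : ℝ) : Set (ℝ × ℝ) := {z | ¬ SafeB X θ z}

theorem nsB_eq (θ : ℝ) : nsB X θ = ⋃ b, (dil X θ b \ dil X (-θ) b) := by
  ext z
  simp only [nsB, SafeB, mem_ofPred_eq, mem_iUnion, mem_sdiff]
  constructor
  · intro hk
    push Not at hk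
    obtain ⟨b, h1, h2⟩ := hk
    exact ⟨b, h2, h1⟩
  · rintro ⟨b, h1, h2⟩ h
    rcases h b with h3 | h3
    · exact h2 h3
    · exact h3 h1

theorem nsB_meas [Finite κ] (θ : ℝ) : MeasurableSet (nsB X θ) := by
  rw [nsB_eq]
  exact MeasurableSet.iUnion fun b => (dil_meas X _ b).diff (dil_meas X _ b)

theorem safeB_meas [Finite κ] (θ : ℝ) : MeasurableSet {z | SafeB X θ z} := by
  have : {z | SafeB X θ z} = (nsB X θ)ᶜ := by
    ext z
    simp [nsB]
  rw [this]
  exact (nsB_meas X θ).compl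

theorem nsB_sum [Fintype κ] {θ : ℝ} (h0 : 0 ≤ θ) (h1 : θ ≤ 1 / 2) :
    volume (nsB X θ) ≤ ENNReal.ofReal (8 * θ) * ∑ b, ENNReal.ofReal (X.lam b * X.h b) := by
  rw [nsB_eq]
  refine (measure_iUnion_le _).trans ?_
  rw [tsum_fintype, Finset.mul_sum]
  refine Finset.sum_le_sum fun b _ => ?_
  rw [marg2_vol X h0 h1 b, ← ENNReal.ofReal_mul (by positivity)]

/-! ## the active set -/

variable [Fintype ι] [Fintype κ]

omit [Fintype κ] in
theorem gact_eq (z : ℝ × ℝ) : H646.Gain.act X z = act X z := by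
  ext i
  rw [T580.Lev.mem_act]
  simp only [H646.Gain.act, Finset.mem_filter, Finset.mem_univ, true_and]
  rfl

theorem act_mem_meas (i : ι) : MeasurableSet {z | i ∈ act X z} := by
  have : {z | i ∈ act X z} = Ri X i := by
    ext z
    exact T580.Lev.mem_act
  rw [this]
  exact Ri_meas X i

/-- every condition on the active set is measurable -/
theorem act_set_meas (p : Finset ι → Prop) : MeasurableSet {z | p (act X z)} := by
  classical
  have h1 : ∀ S : Finset ι, MeasurableSet {z | act X z = S} := by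
    intro S
    have : {z | act X z = S} = ⋂ i, {z | i ∈ act X z ↔ i ∈ S} := by
      ext z
      simp only [mem_ofPred_eq, mem_iInter, Finset.ext_iff]
    rw [this]
    refine MeasurableSet.iInter fun i => ?_
    by_cases hi : i ∈ S
    · simpa [hi] using act_mem_meas X i
    · have := (act_mem_meas X i).compl
      simpa [hi, compl_ofPred] using this
  have : {z | p (act X z)} = ⋃ S, ⋃ (_ : p S), {z | act X z = S} := by
    ext z
    simp only [mem_ofPred_eq, mem_iUnion, exists_prop]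
    constructor
    · intro h
      exact ⟨_, h, rfl⟩
    · rintro ⟨S, h, rfl⟩
      exact h
  rw [this]
  exact MeasurableSet.iUnion fun b => MeasurableSet.iUnion fun _ => h1 _

theorem card_meas : Measurable fun z => ((act X z).card : ℝ≥0∞) :=
  mem_act_meas (act_mem_meas X)

open Classical in
theorem reg_vol {X : Bxs ι κ} (hX : X.Disj) (i : ι) :
    ∫⁻ z, (if i ∈ act X z then (1 : ℝ≥0∞) else 0) =
      ∑ k, if X.tb k = i then ENNReal.ofReal (X.lam k * X.h k) else 0 := by
  classical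
  set S := Finset.univ.filter (fun k => X.tb k = i) with hS
  have hreg : X.reg i = ⋃ k ∈ S, X.box k := by
    ext w
    simp [Bxs.reg, hS]
  have hpd : Set.PairwiseDisjoint (↑S : Set κ) X.box := by
    intro k hk k' hk' hne
    simp only [hS, Finset.coe_filter, Finset.mem_univ, true_and, mem_ofPred_eq] at hk hk'
    exact hX k k' (hk.trans hk'.symm) hne
  have h1 : ∀ z, (if i ∈ act X z then (1 : ℝ≥0∞) else 0) =
      (X.reg i).indicator (fun _ => (1 : ℝ≥0∞)) (z.1, z.2 - X.s i * z.1) := by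
    intro z
    by_cases hz : i ∈ act X z
    · rw [if_pos hz]
      have h2 : X.tilt i z ∈ X.reg i := T580.Lev.mem_act.1 hz
      rw [indicator_of_mem (show (z.1, z.2 - X.s i * z.1) ∈ X.reg i from h2)]
    · rw [if_neg hz]
      have h2 : X.tilt i z ∉ X.reg i := fun h => hz (T580.Lev.mem_act.2 h)
      rw [indicator_of_notMem (show (z.1, z.2 - X.s i * z.1) ∉ X.reg i from h2)]
  simp_rw [h1]
  rw [Bxs.lint_tilt (X.s i) (measurable_const.indicator (reg_meas X i)),
    lintegral_indicator (reg_meas X i), setLIntegral_const, one_mul, hreg,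
    measure_biUnion_finset hpd fun k _ => X.measurableSet_box k, hS, Finset.sum_filter]
  refine Finset.sum_congr rfl fun k _ => ?_
  by_cases hk : X.tb k = i
  · rw [if_pos hk, if_pos hk, Bxs.box, Measure.volume_eq_prod, Measure.prod_prod, Real.volume_Ico,
      Real.volume_Ico, ← ENNReal.ofReal_mul (by have := X.lam_pos k; linarith)]
    congr 1
    ring
  · rw [if_neg hk, if_neg hk]

/-- the number of active tubes: `∫ #act = Σ_k |box k|` -/
theorem card_lint {X : Bxs ι κ} (hX : X.Disj) :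
    ∫⁻ z, ((act X z).card : ℝ≥0∞) = ∑ k, ENNReal.ofReal (X.lam k * X.h k) := by
  classical
  have h1 : ∀ z, ((act X z).card : ℝ≥0∞) = ∑ i, if i ∈ act X z then (1 : ℝ≥0∞) else 0 := by
    intro z
    rw [← Finset.sum_filter, Finset.sum_const, nsmul_eq_mul, mul_one]
    congr 2
    ext i
    simp
  simp_rw [h1]
  rw [lintegral_finsetSum _ fun i _ => Measurable.ite (act_mem_meas X i) measurable_const
    measurable_const]
  simp_rw [reg_vol hX]
  rw [Finset.sum_comm]
  refine Finset.sum_congr rfl fun k _ => ?_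
  rw [Finset.sum_ite_eq]
  simp

/-- **the margins**: the volume of the set where `SafeB` fails -/
theorem nsB_le {X : Bxs ι κ} (hX : X.Disj) {θ : ℝ} (h0 : 0 ≤ θ) (h1 : θ ≤ 1 / 2) :
    volume (nsB X θ) ≤ ENNReal.ofReal (8 * θ) * ∫⁻ z, ((act X z).card : ℝ≥0∞) := by
  rw [card_lint hX]
  exact nsB_sum X h0 h1

omit [Fintype κ] in
/-- the count is an integer -/
theorem card_le_sq (z : ℝ × ℝ) : ((act X z).card : ℝ≥0∞) ≤ ((act X z).card : ℝ≥0∞) ^ 2 := by
  have : (act X z).card ≤ (act X z).card ^ 2 := Nat.le_self_pow (by norm_num) _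
  exact_mod_cast this

theorem nsB_le_sq {X : Bxs ι κ} (hX : X.Disj) {θ : ℝ} (h0 : 0 ≤ θ) (h1 : θ ≤ 1 / 2) :
    volume (nsB X θ) ≤ ENNReal.ofReal (8 * θ) * ∫⁻ z, ((act X z).card : ℝ≥0∞) ^ 2 :=
  (nsB_le hX h0 h1).trans (mul_le_mul' le_rfl (lintegral_mono fun z => card_le_sq X z))

/-- Cauchy-Schwarz over a set -/
theorem card_cs {T : Set (ℝ × ℝ)} (hT : MeasurableSet T) :
    ∫⁻ z in T, ((act X z).card : ℝ≥0∞) ≤
      (∫⁻ z, ((act X z).card : ℝ≥0∞) ^ 2) ^ (1 / 2 : ℝ) * volume T ^ (1 / 2 : ℝ) := by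
  have h := ENNReal.lintegral_mul_le_Lp_mul_Lq (volume : Measure (ℝ × ℝ))
    Real.HolderConjugate.two_two (card_meas X).aemeasurable
    ((measurable_const (a := (1 : ℝ≥0∞))).indicator hT).aemeasurable
  simp only [Pi.mul_apply, ENNReal.rpow_two] at h
  have e1 : ∀ z, ((act X z).card : ℝ≥0∞) * T.indicator (fun _ => (1 : ℝ≥0∞)) z =
      T.indicator (fun z => ((act X z).card : ℝ≥0∞)) z := by
    intro z
    by_cases hz : z ∈ T
    · rw [indicator_of_mem hz, indicator_of_mem hz, mul_one]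
    · rw [indicator_of_notMem hz, indicator_of_notMem hz, mul_zero]
  have e2 : ∀ z, T.indicator (fun _ => (1 : ℝ≥0∞)) z ^ 2 = T.indicator (fun _ => (1 : ℝ≥0∞)) z := by
    intro z
    by_cases hz : z ∈ T
    · rw [indicator_of_mem hz]; norm_num
    · rw [indicator_of_notMem hz]; norm_num
  simp only [e1, e2] at h
  rw [lintegral_indicator hT, lintegral_indicator hT, setLIntegral_const, one_mul] at h
  exact h

/-- the points with many active tubes -/
theorem card_gt {K : ℕ} (hK : 0 < K) :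
    ∫⁻ z in {z | K < (act X z).card}, ((act X z).card : ℝ≥0∞) ≤
      (K : ℝ≥0∞)⁻¹ * ∫⁻ z, ((act X z).card : ℝ≥0∞) ^ 2 := by
  have hK0 : (K : ℝ≥0∞) ≠ 0 := by exact_mod_cast hK.ne'
  have hKt : (K : ℝ≥0∞) ≠ ⊤ := ENNReal.natCast_ne_top K
  rw [← lintegral_const_mul _ ((card_meas X).pow_const 2)]
  refine (setLIntegral_mono' (act_set_meas X fun S => K < S.card) fun z hz => ?_).trans
    (setLIntegral_le_lintegral _ _)
  have h1 : (K : ℝ≥0∞) ≤ ((act X z).card : ℝ≥0∞) := by
    have : K < (act X z).card := hz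
    exact_mod_cast this.le
  calc ((act X z).card : ℝ≥0∞) = (K : ℝ≥0∞)⁻¹ * (K * ((act X z).card : ℝ≥0∞)) := by
        rw [← mul_assoc, ENNReal.inv_mul_cancel hK0 hKt, one_mul]
    _ ≤ (K : ℝ≥0∞)⁻¹ * ((act X z).card : ℝ≥0∞) ^ 2 := by
        rw [sq]
        exact mul_le_mul' le_rfl (mul_le_mul' h1 le_rfl)

/-- the margins -/
theorem card_nsB {X : Bxs ι κ} (hX : X.Disj) {θ : ℝ} (h0 : 0 ≤ θ) (h1 : θ ≤ 1 / 2) :
    ∫⁻ z in nsB X θ, ((act X z).card : ℝ≥0∞) ≤
      ENNReal.ofReal (8 * θ) ^ (1 / 2 : ℝ) * ∫⁻ z, ((act X z).card : ℝ≥0∞) ^ 2 := by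
  refine (card_cs X (nsB_meas X θ)).trans ?_
  have h2 := ENNReal.rpow_le_rpow (nsB_le_sq hX h0 h1) (by norm_num : (0 : ℝ) ≤ 1 / 2)
  refine (mul_le_mul' le_rfl h2).trans (le_of_eq ?_)
  rw [ENNReal.mul_rpow_of_nonneg _ _ (by norm_num : (0 : ℝ) ≤ 1 / 2), mul_left_comm]
  congr 1
  rw [← ENNReal.rpow_add_of_nonneg _ _ (by norm_num) (by norm_num)]
  norm_num

end Vale.Agent.P112.H371
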