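import Vale.Agent.P112.H371.LevWin
import Vale.Agent.P112.H371.Marg2

/-!
# P112, chapter (G), [GAIN]: `lev_win` in the form of `H646.Gain.Out` (helper371)

`lev_out` : `‖∫ f Σ_i G_i‖ ≤ Σ_a (main part of the level a + few active tubes + exceptional part)`,
with `act`, `Gz` of `T580.Lev`.
-/

open MeasureTheory Set
open scoped ENNReal

noncomputable section

namespace Vale.Agent.P112.H371

open Vale.Agent.P112.H8 (Bxs)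
open Vale.Agent.P112.T580.Lev (act Ri Gz Wa_tilt)

/-- the occupancy, in the coordinates of the tube -/
theorem occ_Wa {H : ℝ} (hH : 0 < H) {G : ℝ × ℝ → ℂ} (hG : Measurable G) {w : ℝ × ℝ} {o : ℝ}
    (h : volume {t | t ∈ Ioc w.2 (w.2 + H) ∧ G (w.1, t) ≠ 0} ≤ ENNReal.ofReal (H * o)) :
    Wa H (({ζ | G ζ ≠ 0}).indicator 1) w ≤ ENNReal.ofReal o := by
  have hm : MeasurableSet {t | G (w.1, t) ≠ 0} :=
    (hG.comp (measurable_const.prodMk measurable_id)) (measurableSet_singleton (0 : ℂ)).compl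
  have h1 : ∀ t, ({ζ | G ζ ≠ 0}).indicator (1 : ℝ × ℝ → ℝ≥0∞) (w.1, t) =
      ({t | G (w.1, t) ≠ 0}).indicator (fun _ => (1 : ℝ≥0∞)) t := by
    intro t
    by_cases ht : G (w.1, t) = 0
    · rw [indicator_of_notMem (show (w.1, t) ∉ {ζ | G ζ ≠ 0} from fun h => h ht),
        indicator_of_notMem (show t ∉ {t | G (w.1, t) ≠ 0} from fun h => h ht)]
    · rw [indicator_of_mem (show (w.1, t) ∈ {ζ | G ζ ≠ 0} from ht),
        indicator_of_mem (show t ∈ {t | G (w.1, t) ≠ 0} from ht)]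
      rfl
  unfold Wa
  simp_rw [h1]
  rw [lintegral_indicator hm, setLIntegral_const, one_mul, Measure.restrict_apply hm]
  have h2 : {t | G (w.1, t) ≠ 0} ∩ Ioc w.2 (w.2 + H) =
      {t | t ∈ Ioc w.2 (w.2 + H) ∧ G (w.1, t) ≠ 0} := by
    ext t
    simp only [mem_inter_iff, mem_ofPred_eq]
    tauto
  rw [h2]
  refine (mul_le_mul' le_rfl h).trans (le_of_eq ?_)
  rw [← ENNReal.ofReal_mul (by positivity)]
  congr 1
  field_simp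

/-- **[LEV-WIN] in the form of `Out`** -/
theorem lev_out {ι : Type} [Fintype ι] {N0 : ℕ} {K : Fin N0 → Type} [∀ a, Fintype (K a)]
    {X : ∀ a, Bxs ι (K a)} {s : ι → ℝ} {G : ι → ℝ × ℝ → ℂ} {H : ℝ} (hH : 0 < H)
    (s_eq : ∀ a : Fin N0, (X a).s = s)
    (lev : ∀ (i : ι) (w : ℝ × ℝ) (a a' : Fin N0), w ∈ (X a).reg i → w ∈ (X a').reg i → a = a')
    (out : ∀ (i : ι) (w : ℝ × ℝ), (∀ a : Fin N0, w ∉ (X a).reg i) →
      ∀ t ∈ Ioc w.2 (w.2 + H), G i (w.1, t) = 0)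
    (occ : ∀ (a : Fin N0) (k : K a), ∀ w ∈ (X a).box k,
      volume {t | t ∈ Ioc w.2 (w.2 + H) ∧ G ((X a).tb k) (w.1, t) ≠ 0} ≤
        ENNReal.ofReal (2 * H * (1 / 2) ^ (a : ℕ)))
    (mG : ∀ i, Measurable (G i))
    {f : ℝ × ℝ → ℂ} (hf : Measurable f) (hf1 : ∀ z, ‖f z‖ ≤ 1)
    {S T : Fin N0 → Set (ℝ × ℝ)} (hS : ∀ a, MeasurableSet (S a)) (hT : ∀ a, MeasurableSet (T a))
    {M0 : ℝ≥0∞} (hM : ∀ a, ∀ z ∉ S a, z ∉ T a → ((act (X a) z).card : ℝ≥0∞) ≤ M0) :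
    ‖∫ z : ℝ × ℝ, f z * ∑ i, G i (z.1, z.2 - s i * z.1)‖ₑ ≤
      ∑ a, ((∫⁻ ζ, ‖f ζ‖ₑ) ^ (1 / 2 : ℝ) *
          (∫⁻ z in S a, Wa H (fun ζ => ‖Gz (X a) G z ζ‖ₑ ^ 2) z) ^ (1 / 2 : ℝ) +
        ((M0 * ∫⁻ ζ, ‖f ζ‖ₑ) ^ (3 / 4 : ℝ) +
          (ENNReal.ofReal (2 * (1 / 2) ^ (a : ℕ)) *
            ∫⁻ z in T a, ((act (X a) z).card : ℝ≥0∞)) ^ (3 / 4 : ℝ)) *
          (∑ i, ∫⁻ ζ, ‖G i ζ‖ₑ ^ 4) ^ (1 / 4 : ℝ)) := by
  set G' : ι → ℝ × ℝ → ℂ := fun i ζ => G i (ζ.1, ζ.2 - s i * ζ.1) with hG'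
  have htm : ∀ i, Measurable fun ζ : ℝ × ℝ => (ζ.1, ζ.2 - s i * ζ.1) := fun i => by fun_prop
  have mG' : ∀ i, Measurable (G' i) := fun i => (mG i).comp (htm i)
  have htilt : ∀ a i z, (X a).tilt i z = (z.1, z.2 - s i * z.1) := by
    intro a i z
    unfold Bxs.tilt
    rw [s_eq a]
  have hf1' : ∀ z, ‖f z‖ₑ ≤ 1 := by
    intro z
    rw [← ofReal_norm, ← ENNReal.ofReal_one]
    exact ENNReal.ofReal_le_ofReal (hf1 z)
  have h1 : ‖∫ z : ℝ × ℝ, f z * ∑ i, G i (z.1, z.2 - s i * z.1)‖ₑ ≤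
      ∫⁻ z, ‖f z‖ₑ * ‖∑ i, G' i z‖ₑ := by
    refine (enorm_integral_le_lintegral_enorm _).trans (le_of_eq ?_)
    refine lintegral_congr fun z => ?_
    rw [enorm_mul]
  refine h1.trans ?_
  have hcov : ∀ z i, ∀ v ∈ Ioc (0 : ℝ) H, G' i (sh (z, v)) ≠ 0 → ∃ a, i ∈ act (X a) z := by
    intro z i v hv hne
    by_contra hcon
    push Not at hcon
    apply hne
    have h2 := out i (z.1, z.2 - s i * z.1) (fun a ha => hcon a (by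
      rw [T580.Lev.mem_act]
      show (X a).tilt i z ∈ (X a).reg i
      rw [htilt]
      exact ha)) (z.2 - s i * z.1 + v) ⟨by simpa using hv.1, by simpa using hv.2⟩
    simp only [hG', sh]
    rw [← h2]
    congr 2
    ring
  have hdis : ∀ a a' z i, i ∈ act (X a) z → i ∈ act (X a') z → a = a' := by
    intro a a' z i h2 h3
    rw [T580.Lev.mem_act] at h2 h3
    have h2' : (X a).tilt i z ∈ (X a).reg i := h2
    have h3' : (X a').tilt i z ∈ (X a').reg i := h3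
    rw [htilt] at h2' h3'
    exact lev i _ a a' h2' h3'
  have ho : ∀ a, ∀ z ∈ T a, ∀ i ∈ act (X a) z,
      Wa H (({ζ | G' i ζ ≠ 0}).indicator 1) z ≤ ENNReal.ofReal (2 * (1 / 2) ^ (a : ℕ)) := by
    intro a z _ i hi
    rw [T580.Lev.mem_act] at hi
    obtain ⟨k, hk, hkz⟩ := (show (X a).tilt i z ∈ (X a).reg i from hi)
    subst hk
    have h4 : (({ζ | G' ((X a).tb k) ζ ≠ 0}).indicator (1 : ℝ × ℝ → ℝ≥0∞)) = fun ζ =>
        (({w | G ((X a).tb k) w ≠ 0}).indicator (1 : ℝ × ℝ → ℝ≥0∞)) ((X a).tilt ((X a).tb k) ζ) := by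
      funext ζ
      rw [htilt]
      rfl
    rw [h4, Wa_tilt]
    refine occ_Wa hH (mG _) ?_
    have h5 := occ a k _ hkz
    rw [show H * (2 * (1 / 2 : ℝ) ^ (a : ℕ)) = 2 * H * (1 / 2) ^ (a : ℕ) by ring]
    exact h5
  have hmain := lev_win (A := Fin N0) hH hf.enorm hf1' mG' (fun a z => act (X a) z)
    (fun a i => act_mem_meas (X a) i) hcov hdis hS hT hM ho
  refine hmain.trans (le_of_eq ?_)
  refine Finset.sum_congr rfl fun a _ => ?_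
  have h6 : ∀ z ζ, ∑ i ∈ act (X a) z, G' i ζ = Gz (X a) G z ζ := by
    intro z ζ
    unfold Gz
    refine Finset.sum_congr rfl fun i _ => ?_
    rw [htilt]
  have h7 : ∀ i, ∫⁻ ζ, ‖G' i ζ‖ₑ ^ 4 = ∫⁻ ζ, ‖G i ζ‖ₑ ^ 4 := fun i =>
    Bxs.lint_tilt (s i) (f := fun ζ => ‖G i ζ‖ₑ ^ 4) ((mG i).enorm.pow_const 4)
  simp only [h6, h7]

/-- the same, from `Out` -/
theorem lev_of_out {ι : Type} [Fintype ι] {N0 : ℕ} {K : Fin N0 → Type} [∀ a, Fintype (K a)]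
    {X : ∀ a, Bxs ι (K a)} {s : ι → ℝ} {G : ι → ℝ × ℝ → ℂ} {V : ℝ≥0∞} {R H0 θ Qs e H1 : ℝ} {m : ℕ}
    (hH : 0 < H0) (hO : H646.Gain.Out s G V R H0 θ Qs e H1 m N0 K X)
    {f : ℝ × ℝ → ℂ} (hf : Measurable f) (hf1 : ∀ z, ‖f z‖ ≤ 1)
    {S T : Fin N0 → Set (ℝ × ℝ)} (hS : ∀ a, MeasurableSet (S a)) (hT : ∀ a, MeasurableSet (T a))
    {M0 : ℝ≥0∞} (hM : ∀ a, ∀ z ∉ S a, z ∉ T a → ((act (X a) z).card : ℝ≥0∞) ≤ M0) :
    ‖∫ z : ℝ × ℝ, f z * ∑ i, G i (z.1, z.2 - s i * z.1)‖ₑ ≤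
      ∑ a, ((∫⁻ ζ, ‖f ζ‖ₑ) ^ (1 / 2 : ℝ) *
          (∫⁻ z in S a, Wa H0 (fun ζ => ‖Gz (X a) G z ζ‖ₑ ^ 2) z) ^ (1 / 2 : ℝ) +
        ((M0 * ∫⁻ ζ, ‖f ζ‖ₑ) ^ (3 / 4 : ℝ) +
          (ENNReal.ofReal (2 * (1 / 2) ^ (a : ℕ)) *
            ∫⁻ z in T a, ((act (X a) z).card : ℝ≥0∞)) ^ (3 / 4 : ℝ)) *
          (∑ i, ∫⁻ ζ, ‖G i ζ‖ₑ ^ 4) ^ (1 / 4 : ℝ)) :=
  lev_out hH hO.s_eq hO.lev hO.out hO.occ hO.mG hf hf1 hS hT hM

/-- `∫ ‖f‖ ≤ measure of the support` -/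
theorem lint_f_le {f : ℝ × ℝ → ℂ} (hf : Measurable f) (hf1 : ∀ z, ‖f z‖ ≤ 1) :
    ∫⁻ ζ, ‖f ζ‖ₑ ≤ volume {z | f z ≠ 0} := by
  have hm : MeasurableSet {z | f z ≠ 0} := hf (measurableSet_singleton (0 : ℂ)).compl
  calc ∫⁻ ζ, ‖f ζ‖ₑ ≤ ∫⁻ ζ, ({z | f z ≠ 0}).indicator (fun _ => (1 : ℝ≥0∞)) ζ := by
        refine lintegral_mono fun z => ?_
        by_cases hz : f z = 0
        · simp [hz]
        · rw [indicator_of_mem (show z ∈ {z | f z ≠ 0} from hz)]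
          rw [← ofReal_norm, ← ENNReal.ofReal_one]
          exact ENNReal.ofReal_le_ofReal (hf1 z)
    _ = volume {z | f z ≠ 0} := by
        rw [lintegral_indicator hm, setLIntegral_const, one_mul]

end Vale.Agent.P112.H371
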