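import Vale.Agent.P112.H646.Defs

/-!
# P112, chapter (G), block (u4): margins of the boxes (helper371)

Measurability of everything attached to a `Sys`, the volume of the boxes and the measure of the
ns set.
-/

open MeasureTheory Set
open scoped ENNReal

noncomputable section

namespace Vale.Agent.P112.H371

open Vale.Agent.P112.H646

variable {ι κ : Type} [Fintype ι] [Fintype κ] (Z : Sys ι κ)

/-! ## a sheared rectangle -/

/-- a sheared rectangle -/
def sr (s a b c d : ℝ) : Set (ℝ × ℝ) := {z | a ≤ z.1 ∧ z.1 < b ∧ c ≤ z.2 - s * z.1 ∧ z.2 - s * z.1 < d}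

theorem sr_meas (s a b c d : ℝ) : MeasurableSet (sr s a b c d) := by
  have h1 : Measurable fun z : ℝ × ℝ => z.1 := measurable_fst
  have h2 : Measurable fun z : ℝ × ℝ => z.2 - s * z.1 := measurable_snd.sub (measurable_fst.const_mul s)
  exact (measurableSet_le measurable_const h1).inter ((measurableSet_lt h1 measurable_const).inter
    ((measurableSet_le measurable_const h2).inter (measurableSet_lt h2 measurable_const)))

theorem sr_vol (s a b c d : ℝ) :
    volume (sr s a b c d) = ENNReal.ofReal (b - a) * ENNReal.ofReal (d - c) := by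
  have h0 : (volume : Measure (ℝ × ℝ)) = (volume : Measure ℝ).prod volume := rfl
  rw [h0, Measure.prod_apply (sr_meas s a b c d)]
  have h1 : ∀ x : ℝ, (volume : Measure ℝ) (Prod.mk x ⁻¹' sr s a b c d) =
      (Ico a b).indicator (fun _ => ENNReal.ofReal (d - c)) x := by
    intro x
    by_cases hx : x ∈ Ico a b
    · rw [indicator_of_mem hx]
      have : Prod.mk x ⁻¹' sr s a b c d = Ico (c + s * x) (d + s * x) := by
        ext y
        simp only [sr, mem_preimage, mem_ofPred_eq, mem_Ico]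
        constructor
        · rintro ⟨_, _, h3, h4⟩
          exact ⟨by linarith, by linarith⟩
        · rintro ⟨h3, h4⟩
          exact ⟨hx.1, hx.2, by linarith, by linarith⟩
      rw [this, Real.volume_Ico]
      congr 1
      ring
    · rw [indicator_of_notMem hx]
      have : Prod.mk x ⁻¹' sr s a b c d = ∅ := by
        ext y
        simp only [sr, mem_preimage, mem_ofPred_eq, mem_empty_iff_false, iff_false]
        rintro ⟨h1, h2, _⟩
        exact hx ⟨h1, h2⟩
      rw [this, measure_empty]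
  simp_rw [h1]
  rw [lintegral_indicator measurableSet_Ico, setLIntegral_const, Real.volume_Ico, mul_comm]

/-! ## the boxes -/

theorem bx_eq (θ : ℝ) (b : κ) : Z.bx θ b = sr (Z.s (Z.tb b)) (Z.x0 b - θ * Z.lam b)
    (Z.x0 b + Z.lam b + θ * Z.lam b) (Z.y0 b - θ * Z.h b) (Z.y0 b + Z.h b + θ * Z.h b) := rfl

theorem bx_meas (θ : ℝ) (b : κ) : MeasurableSet (Z.bx θ b) := by
  rw [bx_eq]; exact sr_meas _ _ _ _ _

theorem bx_vol {θ : ℝ} (hθ : -(1 / 2) ≤ θ) (b : κ) :
    volume (Z.bx θ b) = ENNReal.ofReal ((1 + 2 * θ) ^ 2 * (Z.lam b * Z.h b)) := by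
  have h1 := Z.lam_pos b
  have h2 := Z.h_pos b
  rw [bx_eq, sr_vol, ← ENNReal.ofReal_mul]
  · congr 1
    ring
  · have : Z.x0 b + Z.lam b + θ * Z.lam b - (Z.x0 b - θ * Z.lam b) = (1 + 2 * θ) * Z.lam b := by ring
    rw [this]
    exact mul_nonneg (by linarith) h1.le

theorem bx_vol_zero (b : κ) : volume (Z.bx 0 b) = ENNReal.ofReal (Z.lam b * Z.h b) := by
  rw [bx_vol Z (by norm_num)]
  congr 1
  ring

theorem bx_mono {θ θ' : ℝ} (h : θ ≤ θ') (b : κ) : Z.bx θ b ⊆ Z.bx θ' b := by
  intro z hz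
  have h1 := mul_le_mul_of_nonneg_right h (Z.lam_pos b).le
  have h2 := mul_le_mul_of_nonneg_right h (Z.h_pos b).le
  obtain ⟨a1, a2, a3, a4⟩ := hz
  exact ⟨by linarith, by linarith, by linarith, by linarith⟩

/-! ## measurability -/

theorem mem_act {i : ι} {z : ℝ × ℝ} : i ∈ Z.act z ↔ ∃ b, Z.tb b = i ∧ z ∈ Z.bx 0 b := by
  classical
  unfold Sys.act
  simp

theorem meas_mem_act (i : ι) : MeasurableSet {z | i ∈ Z.act z} := by
  have : {z | i ∈ Z.act z} = ⋃ b, ⋃ (_ : Z.tb b = i), Z.bx 0 b := by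
    ext z
    simp only [mem_ofPred_eq, mem_act, mem_iUnion, exists_prop]
  rw [this]
  exact MeasurableSet.iUnion fun b => MeasurableSet.iUnion fun _ => bx_meas Z 0 b

theorem meas_act_eq (S : Finset ι) : MeasurableSet {z | Z.act z = S} := by
  classical
  have : {z | Z.act z = S} = ⋂ i, {z | i ∈ Z.act z ↔ i ∈ S} := by
    ext z
    simp only [mem_ofPred_eq, mem_iInter, Finset.ext_iff]
  rw [this]
  refine MeasurableSet.iInter fun i => ?_
  by_cases hi : i ∈ S
  · simpa [hi] using meas_mem_act Z i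
  · have := (meas_mem_act Z i).compl
    simpa [hi, compl_ofPred] using this

/-- every condition on the active set is measurable -/
theorem meas_act (p : Finset ι → Prop) : MeasurableSet {z | p (Z.act z)} := by
  classical
  have : {z | p (Z.act z)} = ⋃ S, ⋃ (_ : p S), {z | Z.act z = S} := by
    ext z
    simp only [mem_ofPred_eq, mem_iUnion, exists_prop]
    constructor
    · intro h
      exact ⟨_, h, rfl⟩
    · rintro ⟨S, h, rfl⟩
      exact h
  rw [this]
  exact MeasurableSet.iUnion fun b => MeasurableSet.iUnion fun _ => meas_act_eq Z _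

theorem meas_a (i : ι) : Measurable (Z.a i) := by
  classical
  unfold Sys.a
  refine Finset.measurable_sum _ fun b _ => ?_
  by_cases hb : Z.tb b = i
  · have : (fun z : ℝ × ℝ => if Z.tb b = i ∧ z ∈ Z.bx 0 b then Z.val b else 0) =
        (Z.bx 0 b).indicator fun _ => Z.val b := by
      ext z
      by_cases hz : z ∈ Z.bx 0 b <;> simp [hb, hz]
    rw [this]
    exact measurable_const.indicator (bx_meas Z 0 b)
  · simp [hb]

theorem meas_safe (θ : ℝ) (i : ι) : MeasurableSet {z | Z.Safe θ i z} := by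
  have : {z | Z.Safe θ i z} = ⋂ b, ⋂ (_ : Z.tb b = i), (Z.bx (-θ) b ∪ (Z.bx θ b)ᶜ) := by
    ext z
    simp only [Sys.Safe, mem_ofPred_eq, mem_iInter, mem_union, mem_compl_iff]
  rw [this]
  exact MeasurableSet.iInter fun b => MeasurableSet.iInter fun _ =>
    (bx_meas Z _ b).union (bx_meas Z _ b).compl

theorem meas_E (A : ℝ) (P : Finset ι) (θ : ℝ) : MeasurableSet (Z.E A P θ) := by
  classical
  have : Z.E A P θ = ⋂ k, ⋂ (_ : Near A Z.s P k), ({z | Z.Safe θ k z} ∩ {z | k ∈ Z.act z ↔ k ∈ P}) := by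
    ext z
    simp only [Sys.E, mem_ofPred_eq, mem_iInter, mem_inter_iff]
  rw [this]
  refine MeasurableSet.iInter fun k => MeasurableSet.iInter fun _ => (meas_safe Z θ k).inter ?_
  exact meas_act Z fun S => (k ∈ S ↔ k ∈ P)

theorem meas_sq (P : Finset ι) : Measurable (Z.sq P) := by
  unfold Sys.sq
  exact Finset.measurable_sum _ fun i _ => ENNReal.measurable_ofReal.comp ((meas_a Z i).norm.pow_const 2)

theorem meas_G (P : Finset ι) : Measurable (Z.G P) := by
  unfold Sys.G ff
  refine Finset.measurable_sum _ fun i _ => (meas_a Z i).mul ?_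
  refine Complex.measurable_exp.comp ?_
  refine measurable_const.mul (Complex.measurable_ofReal.comp ?_)
  exact measurable_fst.const_mul _

theorem meas_gg (β : ℝ) (P : Finset ι) : Measurable fun z => gg β P fun i => Z.a i z := by
  unfold gg
  refine Measurable.pow_const ?_ β
  exact Finset.measurable_sum _ fun i _ => ((meas_a Z i).norm.pow_const _)

theorem meas_phi (β : ℝ) (P : Finset ι) : Measurable (Z.phi β P) := by
  unfold Sys.phi
  exact ENNReal.measurable_ofReal.comp (((meas_G Z P).norm.pow_const 4).div ((meas_gg Z β P).pow_const 2))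

/-! ## the ns set -/

/-- the margin of one box -/
theorem marg_vol {θ : ℝ} (h0 : 0 ≤ θ) (h1 : θ ≤ 1 / 2) (b : κ) :
    volume (Z.bx θ b \ Z.bx (-θ) b) = ENNReal.ofReal (8 * θ * (Z.lam b * Z.h b)) := by
  rw [measure_sdiff (bx_mono Z (by linarith) b) (bx_meas Z _ b).nullMeasurableSet
    (by rw [bx_vol Z (by linarith)]; exact ENNReal.ofReal_ne_top), bx_vol Z (by linarith),
    bx_vol Z (by linarith), ← ENNReal.ofReal_sub _ (by have := Z.lam_pos b; have := Z.h_pos b; positivity)]
  congr 1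
  ring

/-- the ns set -/
def NS (θ : ℝ) : Set (ℝ × ℝ) := {z | ∃ k, ¬ Z.Safe θ k z}

theorem ns_eq (θ : ℝ) : NS Z θ = ⋃ b, (Z.bx θ b \ Z.bx (-θ) b) := by
  ext z
  simp only [NS, Sys.Safe, mem_ofPred_eq, mem_iUnion, mem_sdiff]
  constructor
  · rintro ⟨k, hk⟩
    push Not at hk
    obtain ⟨b, _, h1, h2⟩ := hk
    exact ⟨b, h2, h1⟩
  · rintro ⟨b, h1, h2⟩
    refine ⟨Z.tb b, fun h => ?_⟩
    rcases h b rfl with h3 | h3
    · exact h2 h3
    · exact h3 h1

theorem ns_meas (θ : ℝ) : MeasurableSet (NS Z θ) := by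
  rw [ns_eq]
  exact MeasurableSet.iUnion fun b => (bx_meas Z _ b).diff (bx_meas Z _ b)

/-- **(u4)** the measure of the ns set -/
theorem ns_le {θ : ℝ} (h0 : 0 ≤ θ) (h1 : θ ≤ 1 / 2) :
    volume (NS Z θ) ≤ ENNReal.ofReal (8 * θ * ∑ b, Z.lam b * Z.h b) := by
  rw [ns_eq]
  refine (measure_iUnion_le _).trans ?_
  rw [tsum_fintype, Finset.mul_sum, ENNReal.ofReal_sum_of_nonneg]
  · exact Finset.sum_le_sum fun b _ => (marg_vol Z h0 h1 b).le
  · intro b _
    have := Z.lam_pos b
    have := Z.h_pos b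
    positivity

/-- the ns set with weights: `∫_{ns} w ≤ Σ_b ∫_{margin of b} w` for every weight -/
theorem ns_lint_le (θ : ℝ) (w : ℝ × ℝ → ℝ≥0∞) :
    ∫⁻ z in NS Z θ, w z ≤ ∑ b, ∫⁻ z in Z.bx θ b \ Z.bx (-θ) b, w z := by
  rw [ns_eq]
  refine (lintegral_iUnion_le _ _).trans ?_
  rw [tsum_fintype]

/-- local form: only the boxes which meet `T` count -/
theorem ns_inter_le {θ : ℝ} (h0 : 0 ≤ θ) (h1 : θ ≤ 1 / 2) (T : Set (ℝ × ℝ)) (B : Finset κ)
    (hB : ∀ b, (Z.bx θ b ∩ T).Nonempty → b ∈ B) :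
    volume (NS Z θ ∩ T) ≤ ENNReal.ofReal (8 * θ * ∑ b ∈ B, Z.lam b * Z.h b) := by
  classical
  have : NS Z θ ∩ T ⊆ ⋃ b ∈ B, (Z.bx θ b \ Z.bx (-θ) b) := by
    rw [ns_eq]
    rintro z ⟨hz, hT⟩
    obtain ⟨b, hb⟩ := mem_iUnion.1 hz
    exact mem_biUnion (hB b ⟨z, hb.1, hT⟩) hb
  refine (measure_mono this).trans ((measure_biUnion_finset_le _ _).trans ?_)
  rw [Finset.mul_sum, ENNReal.ofReal_sum_of_nonneg]
  · exact Finset.sum_le_sum fun b _ => (marg_vol Z h0 h1 b).le
  · intro b _
    have := Z.lam_pos b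
    have := Z.h_pos b
    positivity

/-! ## the sum of the squares -/

/-- with disjoint boxes the amplitude is `val b` on the box `b` -/
theorem a_of_mem (hd : Z.Disj) {b : κ} {z : ℝ × ℝ} (hz : z ∈ Z.bx 0 b) : Z.a (Z.tb b) z = Z.val b := by
  classical
  unfold Sys.a
  rw [Finset.sum_eq_single b]
  · simp [hz]
  · intro b' _ hb'
    rw [if_neg]
    rintro ⟨h1, h2⟩
    exact disjoint_left.1 (hd b' b h1 hb') h2 hz
  · intro h
    exact absurd (Finset.mem_univ b) h

theorem a_of_not_act {i : ι} {z : ℝ × ℝ} (hz : i ∉ Z.act z) : Z.a i z = 0 := by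
  classical
  unfold Sys.a
  refine Finset.sum_eq_zero fun b _ => ?_
  rw [if_neg]
  intro h
  exact hz ((mem_act Z).2 ⟨b, h⟩)

theorem a_ne_zero_iff (hd : Z.Disj) {i : ι} {z : ℝ × ℝ} : Z.a i z ≠ 0 ↔ i ∈ Z.act z := by
  constructor
  · intro h
    by_contra h1
    exact h (a_of_not_act Z h1)
  · intro h
    obtain ⟨b, rfl, hb⟩ := (mem_act Z).1 h
    rw [a_of_mem Z hd hb]
    exact Z.val_ne b

/-- `∫ Σ_i |a_i|^p = Σ_b |val b|^p |box b|` for every function of the amplitude vanishing at `0` -/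
theorem lint_f (hd : Z.Disj) (f : ℂ → ℝ≥0∞) (hf : f 0 = 0) :
    ∫⁻ z, ∑ i, f (Z.a i z) = ∑ b, f (Z.val b) * ENNReal.ofReal (Z.lam b * Z.h b) := by
  classical
  have h1 : ∀ z, ∑ i, f (Z.a i z) = ∑ b, (Z.bx 0 b).indicator (fun _ => f (Z.val b)) z := by
    intro z
    have h2 : ∀ i, f (Z.a i z) = ∑ b, if Z.tb b = i then (Z.bx 0 b).indicator (fun _ => f (Z.val b)) z else 0 := by
      intro i
      by_cases hi : i ∈ Z.act z
      · obtain ⟨b, rfl, hb⟩ := (mem_act Z).1 hi
        rw [a_of_mem Z hd hb, Finset.sum_eq_single b]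
        · rw [if_pos rfl, indicator_of_mem hb]
        · intro b' _ hb'
          by_cases h3 : Z.tb b' = Z.tb b
          · rw [if_pos h3, indicator_of_notMem]
            intro h4
            exact disjoint_left.1 (hd b' b h3 hb') h4 hb
          · rw [if_neg h3]
        · intro h
          exact absurd (Finset.mem_univ b) h
      · rw [a_of_not_act Z hi, hf]
        refine (Finset.sum_eq_zero fun b _ => ?_).symm
        by_cases h3 : Z.tb b = i
        · rw [if_pos h3, indicator_of_notMem]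
          intro h4
          exact hi ((mem_act Z).2 ⟨b, h3, h4⟩)
        · rw [if_neg h3]
    simp_rw [h2]
    rw [Finset.sum_comm]
    refine Finset.sum_congr rfl fun b _ => ?_
    rw [Finset.sum_ite_eq]
    simp
  simp_rw [h1]
  rw [lintegral_finsetSum _ fun b _ => measurable_const.indicator (bx_meas Z 0 b)]
  refine Finset.sum_congr rfl fun b _ => ?_
  rw [lintegral_indicator (bx_meas Z 0 b), setLIntegral_const, bx_vol_zero]

/-- the number of active tubes: `∫ #act = Σ_b |box b|` -/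
theorem lint_act (hd : Z.Disj) :
    ∫⁻ z, ((Z.act z).card : ℝ≥0∞) = ∑ b, ENNReal.ofReal (Z.lam b * Z.h b) := by
  classical
  have h := lint_f Z hd (fun c => if c = 0 then 0 else 1) (by simp)
  have h1 : ∀ z, ∑ i, (if Z.a i z = 0 then (0 : ℝ≥0∞) else 1) = ((Z.act z).card : ℝ≥0∞) := by
    intro z
    have h2 : ∀ i, (if Z.a i z = 0 then (0 : ℝ≥0∞) else 1) = if i ∈ Z.act z then 1 else 0 := by
      intro i
      by_cases hi : i ∈ Z.act z
      · rw [if_neg ((a_ne_zero_iff Z hd).2 hi), if_pos hi]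
      · rw [if_pos (a_of_not_act Z hi), if_neg hi]
    simp_rw [h2]
    simp
  simp_rw [h1] at h
  rw [h]
  refine Finset.sum_congr rfl fun b _ => ?_
  rw [if_neg (Z.val_ne b), one_mul]

end Vale.Agent.P112.H371
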