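import Mathlib

/-!
# P112, chapter (G), block (u2): exact Parseval windows (helper371)

`Gb H b G (x,y) = (1/H) ∫_y^{y+H} e^{-i (2πb/H) t} G(x,t) dt`, `b ∈ ℤ`.
-/

open MeasureTheory Set
open scoped ENNReal Real

noncomputable section

namespace Vale.Agent.P112.H371

/-- the band frequencies -/
def eb (H : ℝ) (b : ℤ) : ℝ := 2 * π * b / H

/-- the window coefficients -/
def Gb (H : ℝ) (b : ℤ) (G : ℝ × ℝ → ℂ) (z : ℝ × ℝ) : ℂ :=
  (1 / H : ℝ) * ∫ t in z.2..(z.2 + H), Complex.exp (-(Complex.I * (eb H b * t : ℝ))) * G (z.1, t)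

theorem Gb_eq_coeff {H : ℝ} (hH : 0 < H) (b : ℤ) (G : ℝ × ℝ → ℂ) (z : ℝ × ℝ) :
    Gb H b G z = fourierCoeffOn (lt_add_of_pos_right z.2 hH) (fun t => G (z.1, t)) b := by
  rw [fourierCoeffOn_eq_integral, Gb]
  have h1 : z.2 + H - z.2 = H := by ring
  rw [Complex.real_smul, h1]
  congr 1
  refine intervalIntegral.integral_congr fun t _ => ?_
  simp only [smul_eq_mul]
  congr 1
  rw [fourier_coe_apply]
  congr 1
  unfold eb
  have hH' : (H : ℂ) ≠ 0 := by exact_mod_cast hH.ne'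
  push_cast
  field_simp

/-- the exact Parseval identity -/
theorem hasSum_Gb {H : ℝ} (hH : 0 < H) (G : ℝ × ℝ → ℂ) (z : ℝ × ℝ)
    (hG : MemLp (fun t => G (z.1, t)) 2 (volume.restrict (Ioc z.2 (z.2 + H)))) :
    HasSum (fun b : ℤ => ‖Gb H b G z‖ ^ 2) (H⁻¹ * ∫ t in z.2..(z.2 + H), ‖G (z.1, t)‖ ^ 2) := by
  have h := hasSum_sq_fourierCoeffOn (lt_add_of_pos_right z.2 hH) hG
  have h1 : z.2 + H - z.2 = H := by ring
  rw [h1, smul_eq_mul] at h
  simp_rw [Gb_eq_coeff hH]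
  exact h

/-- the exact Parseval identity, in `ℝ≥0∞` -/
theorem tsum_Gb {H : ℝ} (hH : 0 < H) (G : ℝ × ℝ → ℂ) (z : ℝ × ℝ)
    (hG : MemLp (fun t => G (z.1, t)) 2 (volume.restrict (Ioc z.2 (z.2 + H)))) :
    ∑' b : ℤ, ‖Gb H b G z‖ₑ ^ 2 =
      ENNReal.ofReal (1 / H) * ∫⁻ t in Ioc z.2 (z.2 + H), ‖G (z.1, t)‖ₑ ^ 2 := by
  have h := hasSum_Gb hH G z hG
  have h1 : ∀ b : ℤ, ‖Gb H b G z‖ₑ ^ 2 = ENNReal.ofReal (‖Gb H b G z‖ ^ 2) := fun b => by
    rw [← ofReal_norm, ENNReal.ofReal_pow (norm_nonneg _)]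
  simp_rw [h1]
  rw [← ENNReal.ofReal_tsum_of_nonneg (fun b => by positivity) h.summable, h.tsum_eq,
    ENNReal.ofReal_mul (by positivity), one_div]
  congr 1
  rw [intervalIntegral.integral_of_le (by linarith), ofReal_integral_eq_lintegral_ofReal]
  · refine lintegral_congr fun t => ?_
    rw [← ofReal_norm, ENNReal.ofReal_pow (norm_nonneg _)]
  · exact hG.integrable_norm_pow (by norm_num)
  · exact Filter.Eventually.of_forall fun t => by positivity

/-- slices of measurable functions with a local bound are in `L²` -/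
theorem memLp_slice {G : ℝ × ℝ → ℂ} (hG : Measurable G) {C : ℝ} (hb : ∀ z, ‖G z‖ ≤ C) (x a b : ℝ)
    (p : ℝ≥0∞) : MemLp (fun t => G (x, t)) p (volume.restrict (Ioc a b)) := by
  have : IsFiniteMeasure ((volume : Measure ℝ).restrict (Ioc a b)) :=
    ⟨by rw [Measure.restrict_apply_univ, Real.volume_Ioc]; exact ENNReal.ofReal_lt_top⟩
  exact MemLp.of_bound (hG.comp (measurable_const.prodMk measurable_id)).aestronglyMeasurable C
    (Filter.Eventually.of_forall fun t => hb _)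

theorem tsum_Gb_bdd {H : ℝ} (hH : 0 < H) {G : ℝ × ℝ → ℂ} (hG : Measurable G) {C : ℝ}
    (hb : ∀ z, ‖G z‖ ≤ C) (z : ℝ × ℝ) :
    ∑' b : ℤ, ‖Gb H b G z‖ₑ ^ 2 =
      ENNReal.ofReal (1 / H) * ∫⁻ t in Ioc z.2 (z.2 + H), ‖G (z.1, t)‖ₑ ^ 2 :=
  tsum_Gb hH G z (memLp_slice hG hb _ _ _ _)

/-! ## the window average of a nonnegative function -/

/-- the window average -/
def Wa (H : ℝ) (f : ℝ × ℝ → ℝ≥0∞) (z : ℝ × ℝ) : ℝ≥0∞ :=
  ENNReal.ofReal (1 / H) * ∫⁻ t in Ioc z.2 (z.2 + H), f (z.1, t)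

theorem Wa_eq {H : ℝ} {f : ℝ × ℝ → ℝ≥0∞} (z : ℝ × ℝ) :
    Wa H f z = ENNReal.ofReal (1 / H) * ∫⁻ v in Ioc 0 H, f (z.1, z.2 + v) := by
  unfold Wa
  congr 1
  have h := (measurePreserving_add_left (volume : Measure ℝ) z.2).setLIntegral_comp_preimage_emb
    (MeasurableEquiv.addLeft z.2).measurableEmbedding (fun t => f (z.1, t)) (Ioc z.2 (z.2 + H))
  have h2 : (fun v => z.2 + v) ⁻¹' (Ioc z.2 (z.2 + H)) = Ioc 0 H := by
    ext v
    simp
  rw [h2] at h
  exact h.symm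

theorem Wa_meas {H : ℝ} {f : ℝ × ℝ → ℝ≥0∞} (hf : Measurable f) : Measurable (Wa H f) := by
  have h : Wa H f = fun z => ENNReal.ofReal (1 / H) * ∫⁻ v in Ioc 0 H, f (z.1, z.2 + v) := by
    ext z; exact Wa_eq z
  rw [h]
  refine Measurable.const_mul ?_ _
  refine Measurable.lintegral_prod_right' (f := fun (p : (ℝ × ℝ) × ℝ) => f (p.1.1, p.1.2 + p.2)) ?_
  exact hf.comp ((measurable_fst.comp measurable_fst).prodMk
    ((measurable_snd.comp measurable_fst).add measurable_snd))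

theorem Wa_mono {H : ℝ} {f g : ℝ × ℝ → ℝ≥0∞} (h : f ≤ g) : Wa H f ≤ Wa H g := by
  intro z
  unfold Wa
  gcongr
  exact h _

/-- vertical translation invariance of the plane measure -/
theorem lint_shift (f : ℝ × ℝ → ℝ≥0∞) (v : ℝ) : ∫⁻ z : ℝ × ℝ, f (z.1, z.2 + v) = ∫⁻ z, f z := by
  have h := (measurePreserving_add_right (volume : Measure (ℝ × ℝ)) ((0 : ℝ), v)).lintegral_comp_emb
    (MeasurableEquiv.addRight ((0 : ℝ), v)).measurableEmbedding f
  rw [← h]
  refine lintegral_congr fun z => ?_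
  congr 1
  ext <;> simp

/-- the window average against a weight -/
theorem lint_Wa {H : ℝ} (hH : 0 < H) {f w : ℝ × ℝ → ℝ≥0∞} (hf : Measurable f) (hw : Measurable w) :
    ∫⁻ z, w z * Wa H f z =
      ENNReal.ofReal (1 / H) * ∫⁻ v in Ioc 0 H, ∫⁻ z : ℝ × ℝ, w (z.1, z.2 - v) * f z := by
  have h1 : ∀ z, w z * Wa H f z =
      ENNReal.ofReal (1 / H) * ∫⁻ v in Ioc 0 H, w z * f (z.1, z.2 + v) := by
    intro z
    rw [Wa_eq, lintegral_const_mul _ (by fun_prop), ← mul_assoc, mul_comm (w z), mul_assoc]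
  simp_rw [h1]
  rw [lintegral_const_mul']
  swap
  · exact ENNReal.ofReal_ne_top
  congr 1
  rw [lintegral_lintegral_swap]
  · refine lintegral_congr fun v => ?_
    rw [← lint_shift (fun z => w (z.1, z.2 - v) * f z) v]
    simp
  · refine Measurable.aemeasurable ?_
    refine ((hw.comp measurable_fst)).mul ?_
    exact hf.comp ((measurable_fst.comp measurable_fst).prodMk
      ((measurable_snd.comp measurable_fst).add measurable_snd))

/-- the total integral of the window average -/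
theorem lint_Wa_all {H : ℝ} (hH : 0 < H) {f : ℝ × ℝ → ℝ≥0∞} (hf : Measurable f) :
    ∫⁻ z, Wa H f z = ∫⁻ z, f z := by
  have h := lint_Wa hH hf (measurable_const (a := (1 : ℝ≥0∞)))
  simp only [one_mul] at h
  rw [h, setLIntegral_const, Real.volume_Ioc, sub_zero, mul_comm, mul_assoc, ← ENNReal.ofReal_mul hH.le]
  rw [mul_one_div_cancel hH.ne', ENNReal.ofReal_one, mul_one]

/-- **(b)** from a set to its vertical neighbourhood -/
theorem lint_le_Wa {H : ℝ} (hH : 0 < H) {f : ℝ × ℝ → ℝ≥0∞} (hf : Measurable f)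
    {Om Op : Set (ℝ × ℝ)} (hOp : MeasurableSet Op)
    (h : ∀ z ∈ Om, ∀ v ∈ Ioc (0 : ℝ) H, (z.1, z.2 - v) ∈ Op) :
    ∫⁻ z in Om, f z ≤ ∫⁻ z in Op, Wa H f z := by
  have h1 : ∫⁻ z in Op, Wa H f z = ∫⁻ z, Op.indicator 1 z * Wa H f z := by
    rw [← lintegral_indicator hOp]
    refine lintegral_congr fun z => ?_
    by_cases hz : z ∈ Op <;> simp [hz]
  rw [h1, lint_Wa hH hf (measurable_one.indicator hOp)]
  have h2 : ∀ v ∈ Ioc (0 : ℝ) H,
      ∫⁻ z in Om, f z ≤ ∫⁻ z : ℝ × ℝ, Op.indicator 1 (z.1, z.2 - v) * f z := by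
    intro v hv
    refine (lintegral_mono_set' (s := Om) (t := {z | (z.1, z.2 - v) ∈ Op}) ?_).trans ?_
    · exact Filter.Eventually.of_forall fun z hz => h z hz v hv
    · rw [← lintegral_indicator]
      · refine lintegral_mono fun z => ?_
        by_cases hz : (z.1, z.2 - v) ∈ Op
        · rw [indicator_of_mem (show z ∈ {z : ℝ × ℝ | (z.1, z.2 - v) ∈ Op} from hz), indicator_of_mem hz]
          simp
        · rw [indicator_of_notMem (show z ∉ {z : ℝ × ℝ | (z.1, z.2 - v) ∈ Op} from hz)]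
          exact bot_le
      · exact (measurable_fst.prodMk (measurable_snd.sub_const v)) hOp
  have h3 : ENNReal.ofReal (1 / H) * ∫⁻ v in Ioc (0 : ℝ) H, ∫⁻ z in Om, f z = ∫⁻ z in Om, f z := by
    rw [setLIntegral_const, Real.volume_Ioc, sub_zero, mul_comm, mul_assoc, ← ENNReal.ofReal_mul hH.le,
      mul_one_div_cancel hH.ne', ENNReal.ofReal_one, mul_one]
  rw [← h3]
  gcongr 1
  exact setLIntegral_mono' measurableSet_Ioc h2

/-! ## the windows -/

theorem Gb_eq_shift (H : ℝ) (b : ℤ) (G : ℝ × ℝ → ℂ) (z : ℝ × ℝ) :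
    Gb H b G z = (1 / H : ℝ) * ∫ v in (0 : ℝ)..H,
      Complex.exp (-(Complex.I * (eb H b * (z.2 + v) : ℝ))) * G (z.1, z.2 + v) := by
  unfold Gb
  congr 1
  have h := intervalIntegral.integral_comp_add_left (a := 0) (b := H)
    (fun t => Complex.exp (-(Complex.I * (eb H b * t : ℝ))) * G (z.1, t)) z.2
  simp only [add_zero] at h
  exact h.symm

theorem Gb_meas {H : ℝ} (hH : 0 < H) (b : ℤ) {G : ℝ × ℝ → ℂ} (hG : Measurable G) :
    Measurable (Gb H b G) := by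
  have h : Gb H b G = fun z => ((1 / H : ℝ) : ℂ) * ∫ v in Ioc 0 H,
      Complex.exp (-(Complex.I * (eb H b * (z.2 + v) : ℝ))) * G (z.1, z.2 + v) := by
    ext z
    rw [Gb_eq_shift, intervalIntegral.integral_of_le hH.le]
  rw [h]
  refine Measurable.const_mul ?_ _
  refine (StronglyMeasurable.integral_prod_right'
    (f := fun (p : (ℝ × ℝ) × ℝ) => Complex.exp (-(Complex.I * (eb H b * (p.1.2 + p.2) : ℝ))) *
      G (p.1.1, p.1.2 + p.2)) (Measurable.stronglyMeasurable ?_)).measurable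
  refine Measurable.mul ?_ ?_
  · refine Complex.measurable_exp.comp (Measurable.neg (measurable_const.mul ?_))
    refine Complex.measurable_ofReal.comp (measurable_const.mul ?_)
    exact (measurable_snd.comp measurable_fst).add measurable_snd
  · exact hG.comp ((measurable_fst.comp measurable_fst).prodMk
      ((measurable_snd.comp measurable_fst).add measurable_snd))

/-- **(b)** the energy of `G` on `Om` is at most the energy of the windows on the neighbourhood -/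
theorem lint_le_Gb {H : ℝ} (hH : 0 < H) {G : ℝ × ℝ → ℂ} (hG : Measurable G) {C : ℝ}
    (hb : ∀ z, ‖G z‖ ≤ C) {Om Op : Set (ℝ × ℝ)} (hOp : MeasurableSet Op)
    (h : ∀ z ∈ Om, ∀ v ∈ Ioc (0 : ℝ) H, (z.1, z.2 - v) ∈ Op) :
    ∫⁻ z in Om, ‖G z‖ₑ ^ 2 ≤ ∫⁻ z in Op, ∑' b : ℤ, ‖Gb H b G z‖ₑ ^ 2 := by
  refine (lint_le_Wa hH (hG.enorm.pow_const 2) hOp h).trans_eq ?_
  refine lintegral_congr fun z => ?_
  rw [tsum_Gb_bdd hH hG hb]
  rfl

/-- the total energy is preserved -/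
theorem lint_Gb_all {H : ℝ} (hH : 0 < H) {G : ℝ × ℝ → ℂ} (hG : Measurable G) {C : ℝ}
    (hb : ∀ z, ‖G z‖ ≤ C) : ∫⁻ z, ∑' b : ℤ, ‖Gb H b G z‖ₑ ^ 2 = ∫⁻ z, ‖G z‖ₑ ^ 2 := by
  rw [← lint_Wa_all hH (hG.enorm.pow_const 2)]
  refine lintegral_congr fun z => ?_
  rw [tsum_Gb_bdd hH hG hb]
  rfl

/-- **(c)** tube functions -/
theorem Gb_tube (H : ℝ) (b : ℤ) (s : ℝ) (g : ℝ × ℝ → ℂ) (z : ℝ × ℝ) :
    Gb H b (fun z => g (z.1, z.2 - s * z.1)) z =
      Complex.exp (-(Complex.I * (eb H b * (s * z.1) : ℝ))) * Gb H b g (z.1, z.2 - s * z.1) := by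
  unfold Gb
  have h := intervalIntegral.integral_comp_sub_right (a := z.2) (b := z.2 + H)
    (fun t => Complex.exp (-(Complex.I * (eb H b * (s * z.1) : ℝ))) *
      (Complex.exp (-(Complex.I * (eb H b * t : ℝ))) * g (z.1, t))) (s * z.1)
  have h2 : z.2 - s * z.1 + H = z.2 + H - s * z.1 := by ring
  simp only [h2]
  rw [mul_left_comm, ← intervalIntegral.integral_const_mul (Complex.exp _), ← h]
  congr 1
  refine intervalIntegral.integral_congr fun t _ => ?_
  rw [← mul_assoc, ← Complex.exp_add]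
  congr 2
  push_cast
  ring

/-- linearity -/
theorem Gb_add {H : ℝ} (hH : 0 < H) (b : ℤ) {G G' : ℝ × ℝ → ℂ} (z : ℝ × ℝ)
    (h1 : IntegrableOn (fun t => G (z.1, t)) (Ioc z.2 (z.2 + H)))
    (h2 : IntegrableOn (fun t => G' (z.1, t)) (Ioc z.2 (z.2 + H))) :
    Gb H b (fun z => G z + G' z) z = Gb H b G z + Gb H b G' z := by
  have key : ∀ F : ℝ → ℂ, IntegrableOn F (Ioc z.2 (z.2 + H)) → IntervalIntegrable
      (fun t => Complex.exp (-(Complex.I * (eb H b * t : ℝ))) * F t) volume z.2 (z.2 + H) := by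
    intro F hF
    rw [intervalIntegrable_iff_integrableOn_Ioc_of_le (by linarith)]
    refine hF.bdd_mul (c := 1) ?_ ?_
    · refine Continuous.aestronglyMeasurable ?_
      fun_prop
    · refine Filter.Eventually.of_forall fun t => ?_
      rw [Complex.norm_exp]
      simp
  unfold Gb
  rw [← mul_add, ← intervalIntegral.integral_add (key _ h1) (key _ h2)]
  congr 1
  refine intervalIntegral.integral_congr fun t _ => ?_
  simp only
  ring

theorem Gb_sum {ι : Type*} {H : ℝ} (hH : 0 < H) (b : ℤ) (S : Finset ι) {G : ι → ℝ × ℝ → ℂ} (z : ℝ × ℝ)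
    (h1 : ∀ i ∈ S, IntegrableOn (fun t => G i (z.1, t)) (Ioc z.2 (z.2 + H))) :
    Gb H b (fun z => ∑ i ∈ S, G i z) z = ∑ i ∈ S, Gb H b (G i) z := by
  classical
  induction S using Finset.induction_on with
  | empty => simp [Gb]
  | insert i S hi ih =>
    simp_rw [Finset.sum_insert hi]
    rw [← ih fun j hj => h1 j (Finset.mem_insert_of_mem hj)]
    refine Gb_add hH b z (h1 i (Finset.mem_insert_self _ _)) ?_
    exact integrable_finsetSum _ fun j hj => h1 j (Finset.mem_insert_of_mem hj)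

end Vale.Agent.P112.H371
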